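import Vale.Agent.P032.H357.Ray

/-!
# P032: crossing rules for germs of curves and for filters

`Dg T γ c` : the colour `c` is present on the curve `γ` at arbitrarily small parameters `r > 0`;
`Ff T F c` : the colour `c` is present frequently along the filter `F` (at a point `y`).
`OutG γ y` / `InG γ y` : the points `γ r`, `r > 0` small, are at distance `> 1` / `< 1` from `y`.

* `Irr.dg_cross` : R1 for a curve at `γ 0` and a filter at `y`, `Irr.dg_shift` : translated curves,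
* `Mx.fil_arc` : R2 for a half arc of `S(z)` at `v` and a filter at `y`,
* `Mx.fil_tan` : R2 at the centre `z` of the half arc,
* `par w b p` : the parabola `p + (r w + r^2 b)` with the criteria `OutG.par_pos`, `InG.par_neg`
  (first order), `OutG.par_orth`, `InG.par_orth` (second order).
-/

open Set Filter Topology Metric

noncomputable section

namespace Vale.Agent.P032.Six

variable {k : ℕ} {U : Fin k → Set ℂ} {T : ℂ → Set (Fin k)}

/-- presence along a filter -/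
def Ff (T : ℂ → Set (Fin k)) (F : Filter ℂ) (c : Fin k) : Prop := ∃ᶠ x in F, c ∈ T x

/-- presence on a curve -/
def Dg (T : ℂ → Set (Fin k)) (γ : ℝ → ℂ) (c : Fin k) : Prop := ∃ᶠ r : ℝ in 𝓝[>] 0, c ∈ T (γ r)

/-- the filter of a curve -/
def cf (γ : ℝ → ℂ) : Filter ℂ := Filter.map γ (𝓝[>] 0)

theorem Dg.ff {γ : ℝ → ℂ} {c : Fin k} (h : Dg T γ c) : Ff T (cf γ) c :=
  Filter.frequently_map.2 h

theorem cf_le {γ : ℝ → ℂ} (hγ : Continuous γ) : cf γ ≤ 𝓝 (γ 0) :=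
  (hγ.tendsto 0).mono_left nhdsWithin_le_nhds

def OutG (γ : ℝ → ℂ) (y : ℂ) : Prop := ∀ᶠ r : ℝ in 𝓝[>] 0, 1 < dist (γ r) y

def InG (γ : ℝ → ℂ) (y : ℂ) : Prop := ∀ᶠ r : ℝ in 𝓝[>] 0, dist (γ r) y < 1

/-- outside / inside along a filter -/
def OutF' (F : Filter ℂ) (y : ℂ) : Prop := ∀ᶠ x in F, 1 < dist x y

def InF' (F : Filter ℂ) (y : ℂ) : Prop := ∀ᶠ x in F, dist x y < 1

theorem OutG.fil {γ : ℝ → ℂ} {y : ℂ} (h : OutG γ y) : OutF' (cf γ) y := Filter.eventually_map.2 h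

theorem InG.fil {γ : ℝ → ℂ} {y : ℂ} (h : InG γ y) : InF' (cf γ) y := Filter.eventually_map.2 h

/-- some colour is present on every curve -/
theorem Irr.exists_dg (h : Irr U T) (γ : ℝ → ℂ) : ∃ c, Dg T γ c := by
  by_contra hcon
  push Not at hcon
  have h2 : ∀ᶠ r : ℝ in 𝓝[>] 0, ∀ c, c ∉ T (γ r) := by
    rw [Filter.eventually_all]
    intro c
    exact Filter.not_frequently.1 (hcon c)
  obtain ⟨r, hr⟩ := h2.exists
  obtain ⟨c, hc⟩ := h.ne (γ r)
  exact hr c hc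

/-- pigeonhole -/
theorem exists_dg_of {γ : ℝ → ℂ} {Q : Fin k → Prop}
    (h : ∃ᶠ r : ℝ in 𝓝[>] 0, ∃ c, Q c ∧ c ∈ T (γ r)) : ∃ c, Q c ∧ Dg T γ c := by
  by_contra hcon
  push Not at hcon
  have h1 : ∀ c, Q c → ∀ᶠ r : ℝ in 𝓝[>] 0, c ∉ T (γ r) := fun c hc =>
    Filter.not_frequently.1 (hcon c hc)
  have h2 : ∀ᶠ r : ℝ in 𝓝[>] 0, ∀ c, Q c → c ∉ T (γ r) := by
    rw [Filter.eventually_all]
    intro c
    by_cases hc : Q c
    · exact (h1 c hc).mono fun r hr _ => hr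
    · exact Filter.Eventually.of_forall fun r hr => absurd hr hc
  obtain ⟨r, ⟨c, hc, hcT⟩, h3⟩ := (h.and_eventually h2).exists
  exact h3 c hc hcT

/-- a present colour is in `T` of the base point -/
theorem Irr.ff_mem (h : Irr U T) {F : Filter ℂ} {y : ℂ} (hF : F ≤ 𝓝 y) {c : Fin k} (hd : Ff T F c) :
    c ∈ T y :=
  (h.closed c).mem_of_frequently_of_tendsto hd hF

/-- **R1** -/
theorem Irr.dg_cross (h : Irr U T) {γ : ℝ → ℂ} (hγ : Continuous γ) {F : Filter ℂ} {y : ℂ}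
    (hF : F ≤ 𝓝 y) {c : Fin k}
    (hs : (OutG γ y ∧ InF' F (γ 0)) ∨ (InG γ y ∧ OutF' F (γ 0))) (hd : Ff T F c) :
    ∃ c', c' ≠ c ∧ Dg T γ c' := by
  apply exists_dg_of
  rw [freq_gt_iff]
  intro ε hε
  obtain ⟨ε1, hε1, h1⟩ : ∃ ε1 > 0, ∀ r : ℝ, 0 < r → r < ε1 →
      ((1 < dist (γ r) y ∧ InF' F (γ 0)) ∨ (dist (γ r) y < 1 ∧ OutF' F (γ 0))) := by
    rcases hs with ⟨a, b⟩ | ⟨a, b⟩
    · obtain ⟨e, he, h2⟩ := ev_gt_iff.1 a
      exact ⟨e, he, fun r hr1 hr2 => Or.inl ⟨h2 r hr1 hr2, b⟩⟩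
    · obtain ⟨e, he, h2⟩ := ev_gt_iff.1 a
      exact ⟨e, he, fun r hr1 hr2 => Or.inr ⟨h2 r hr1 hr2, b⟩⟩
  set ρ2 := min ε ε1 / 2 with hρ2
  have hρ0 : 0 < ρ2 := by have := lt_min hε hε1; linarith
  have hρε : ρ2 < ε := by have := min_le_left ε ε1; have := lt_min hε hε1; linarith
  have hρε1 : ρ2 < ε1 := by have := min_le_right ε ε1; have := lt_min hε hε1; linarith
  have h2 := h1 ρ2 hρ0 hρε1
  have hc : Tendsto (fun x : ℂ => dist (γ ρ2) x) F (𝓝 (dist (γ ρ2) y)) :=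
    (continuous_const.dist continuous_id).continuousAt.tendsto.mono_left hF
  obtain ⟨x, hcx, h5⟩ : ∃ x : ℂ, c ∈ T x ∧
      ((1 < dist (γ ρ2) x ∧ dist (γ 0) x < 1) ∨ (dist (γ ρ2) x < 1 ∧ 1 < dist (γ 0) x)) := by
    rcases h2 with ⟨a, b⟩ | ⟨a, b⟩
    · obtain ⟨x, h6, h7, h8⟩ := (hd.and_eventually ((hc.eventually (Ioi_mem_nhds a)).and b)).exists
      exact ⟨x, h6, Or.inl ⟨h7, by rw [dist_comm]; exact h8⟩⟩
    · obtain ⟨x, h6, h7, h8⟩ := (hd.and_eventually ((hc.eventually (Iio_mem_nhds a)).and b)).exists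
      exact ⟨x, h6, Or.inr ⟨h7, by rw [dist_comm]; exact h8⟩⟩
  have hcont : ContinuousOn (fun ρ : ℝ => dist (γ ρ) x) (uIcc 0 ρ2) :=
    (hγ.dist continuous_const).continuousOn
  have hmem : (1 : ℝ) ∈ uIcc (dist (γ 0) x) (dist (γ ρ2) x) := by
    rcases h5 with ⟨a, b⟩ | ⟨a, b⟩
    · rw [uIcc_of_le (by linarith)]
      exact ⟨b.le, a.le⟩
    · rw [uIcc_of_ge (by linarith)]
      exact ⟨a.le, b.le⟩
  obtain ⟨ρ, hρ, hρ1⟩ := intermediate_value_uIcc hcont hmem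
  rw [uIcc_of_le hρ0.le] at hρ
  have hρpos : 0 < ρ := by
    rcases hρ.1.lt_or_eq with h6 | h6
    · exact h6
    · exfalso
      rw [← h6] at hρ1
      have hρ1 : dist (γ 0) x = 1 := hρ1
      rcases h5 with ⟨_, b⟩ | ⟨_, b⟩ <;> linarith
  refine ⟨ρ, hρpos, lt_of_le_of_lt hρ.2 hρε, ?_⟩
  by_contra hcon
  push Not at hcon
  have hTp : T (γ ρ) ⊆ {c} := fun m hm => by
    by_contra hmc
    exact hcon m hmc hm
  have hU : γ ρ ∈ U c := h.mem_of_single hTp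
  exact h.mx.free c _ hU _ (h.sub _ hcx) hρ1

/-- **R1** for translated curves -/
theorem Irr.dg_shift (h : Irr U T) {γ γ' : ℝ → ℂ} {c : Fin k} (hd1 : ∀ r, dist (γ r) (γ' r) = 1)
    (hd : Dg T γ' c) : ∃ c', c' ≠ c ∧ Dg T γ c' := by
  apply exists_dg_of
  refine hd.mono fun r hr => ?_
  by_contra hcon
  push Not at hcon
  have hTp : T (γ r) ⊆ {c} := fun m hm => by
    by_contra hmc
    exact hcon m hmc hm
  have hU : γ r ∈ U c := h.mem_of_single hTp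
  exact h.mx.free c _ hU _ (h.sub _ hr) (hd1 r)

/-- the closed half arc of length `δ2` -/
theorem halfarc {z v : ℂ} {s ε δ2 : ℝ} {i : Fin k} (hδ0 : 0 < δ2) (hδε : δ2 < ε)
    (h1 : ∀ r : ℝ, 0 < r → r < ε → i ∈ Pal U (z + (v - z) * cis (s * r))) :
    ∃ Q ⊆ closure (U i), IsPreconnected Q ∧ v ∈ Q ∧ z + (v - z) * cis (s * δ2) ∈ Q := by
  have hcq : Continuous fun δ : ℝ => z + (v - z) * cis (s * δ) :=
    continuous_const.add (continuous_const.mul (continuous_cis.comp (continuous_const.mul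
      continuous_id)))
  have hq0 : z + (v - z) * cis (s * 0) = v := by simp [cis]
  have hv : v ∈ closure (U i) := by
    have ht : Tendsto (fun δ : ℝ => z + (v - z) * cis (s * δ)) (𝓝[>] 0) (𝓝 v) := by
      have := hcq.tendsto 0
      rw [hq0] at this
      exact this.mono_left nhdsWithin_le_nhds
    exact isClosed_closure.mem_of_tendsto ht
      (ev_gt_iff.2 ⟨ε, hδ0.trans hδε, fun r h2 h3 => h1 r h2 h3⟩)
  refine ⟨(fun δ : ℝ => z + (v - z) * cis (s * δ)) '' Icc 0 δ2, ?_,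
    isPreconnected_Icc.image _ hcq.continuousOn, ⟨0, ⟨le_rfl, hδ0.le⟩, hq0⟩,
    ⟨δ2, ⟨hδ0.le, le_rfl⟩, rfl⟩⟩
  rintro _ ⟨δ, ⟨hδ1, hδ3⟩, rfl⟩
  rcases hδ1.lt_or_eq with h6 | h6
  · exact h1 δ h6 (by linarith)
  · simp only [← h6]
    rw [hq0]
    exact hv

/-- **R2** along a filter -/
theorem Mx.fil_arc (h : Mx U) {z v y : ℂ} {F : Filter ℂ} (hF : F ≤ 𝓝 y) {s : ℝ} {i : Fin k}
    (hs : (OutA z v s y ∧ InF' F v) ∨ (InA z v s y ∧ OutF' F v)) (hc : Hc U z v s i) :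
    ∀ᶠ x in F, i ∉ Pal U x := by
  obtain ⟨ε, hε, h1⟩ : ∃ ε > 0, ∀ r : ℝ, 0 < r → r < ε →
      ((1 < dist (z + (v - z) * cis (s * r)) y ∧ InF' F v) ∨
        (dist (z + (v - z) * cis (s * r)) y < 1 ∧ OutF' F v)) ∧
        i ∈ Pal U (z + (v - z) * cis (s * r)) := by
    rcases hs with ⟨a, b⟩ | ⟨a, b⟩
    · obtain ⟨e, he, h2⟩ := ev_gt_iff.1 (a.and hc)
      exact ⟨e, he, fun r hr1 hr2 => ⟨Or.inl ⟨(h2 r hr1 hr2).1, b⟩, (h2 r hr1 hr2).2⟩⟩
    · obtain ⟨e, he, h2⟩ := ev_gt_iff.1 (a.and hc)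
      exact ⟨e, he, fun r hr1 hr2 => ⟨Or.inr ⟨(h2 r hr1 hr2).1, b⟩, (h2 r hr1 hr2).2⟩⟩
  set δ2 := ε / 2 with hδ2
  have hδ0 : 0 < δ2 := by linarith
  have hδε : δ2 < ε := by linarith
  have h2 := (h1 δ2 hδ0 hδε).1
  obtain ⟨Q, hQF, hQ, m0, m2⟩ := halfarc (z := z) (v := v) (s := s) (U := U) (i := i) hδ0 hδε
    fun r h3 h4 => (h1 r h3 h4).2
  have hct : Tendsto (fun x : ℂ => dist (z + (v - z) * cis (s * δ2)) x) F
      (𝓝 (dist (z + (v - z) * cis (s * δ2)) y)) :=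
    (continuous_const.dist continuous_id).continuousAt.tendsto.mono_left hF
  rcases h2 with ⟨a, b⟩ | ⟨a, b⟩
  · filter_upwards [hct.eventually (Ioi_mem_nhds a), b] with x h4 h5
    exact h.wlemma hQ hQF m0 m2 (by rw [dist_comm]; exact h5) h4
  · filter_upwards [hct.eventually (Iio_mem_nhds a), b] with x h4 h5
    exact h.wlemma hQ hQF m2 m0 h4 (by rw [dist_comm]; exact h5)

theorem Irr.not_ff_arc (h : Irr U T) {z v y : ℂ} {F : Filter ℂ} (hF : F ≤ 𝓝 y) {s : ℝ} {i : Fin k}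
    (hs : (OutA z v s y ∧ InF' F v) ∨ (InA z v s y ∧ OutF' F v)) (hc : Hc U z v s i) :
    ¬ Ff T F i := by
  intro hd
  obtain ⟨x, h1, h2⟩ := (hd.and_eventually (h.mx.fil_arc hF hs hc)).exists
  exact h2 (h.sub _ h1)

/-- **R2 at the centre**: the relation of the filter to the end point `v` of the half arc and to
its far points is different -/
theorem Mx.fil_tan (h : Mx U) {z v : ℂ} {F : Filter ℂ} {s : ℝ} {i : Fin k}
    (hs : (OutF' F v ∧ ∃ᶠ δ : ℝ in 𝓝[>] 0, InF' F (z + (v - z) * cis (s * δ))) ∨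
      (InF' F v ∧ ∃ᶠ δ : ℝ in 𝓝[>] 0, OutF' F (z + (v - z) * cis (s * δ)))) (hc : Hc U z v s i) :
    ∀ᶠ x in F, i ∉ Pal U x := by
  obtain ⟨ε, hε, h1⟩ := ev_gt_iff.1 hc
  rcases hs with ⟨a, b⟩ | ⟨a, b⟩
  · obtain ⟨δ2, hδ0, hδε, hI⟩ := (freq_gt_iff.1 b) ε hε
    obtain ⟨Q, hQF, hQ, m0, m2⟩ := halfarc (z := z) (v := v) (s := s) (U := U) (i := i) hδ0 hδε h1
    filter_upwards [a, hI] with x h4 h5
    exact h.wlemma hQ hQF m2 m0 (by rw [dist_comm]; exact h5) (by rw [dist_comm]; exact h4)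
  · obtain ⟨δ2, hδ0, hδε, hI⟩ := (freq_gt_iff.1 b) ε hε
    obtain ⟨Q, hQF, hQ, m0, m2⟩ := halfarc (z := z) (v := v) (s := s) (U := U) (i := i) hδ0 hδε h1
    filter_upwards [a, hI] with x h4 h5
    exact h.wlemma hQ hQF m0 m2 (by rw [dist_comm]; exact h4) (by rw [dist_comm]; exact h5)

theorem Irr.not_ff_tan (h : Irr U T) {z v : ℂ} {F : Filter ℂ} {s : ℝ} {i : Fin k}
    (hs : (OutF' F v ∧ ∃ᶠ δ : ℝ in 𝓝[>] 0, InF' F (z + (v - z) * cis (s * δ))) ∨
      (InF' F v ∧ ∃ᶠ δ : ℝ in 𝓝[>] 0, OutF' F (z + (v - z) * cis (s * δ)))) (hc : Hc U z v s i) :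
    ¬ Ff T F i := by
  intro hd
  obtain ⟨x, h1, h2⟩ := (hd.and_eventually (h.mx.fil_tan hs hc)).exists
  exact h2 (h.sub _ h1)

/-- **ct** along a filter -/
theorem Irr.not_ff_out (h : Irr U T) {v q : ℂ} {F : Filter ℂ} (hF : F ≤ 𝓝 v) {i : Fin k}
    (hs : ∀ᶠ x in 𝓝 v, 1 < dist x q → i ∉ Pal U x) (hw : OutF' F q) : ¬ Ff T F i := by
  intro hd
  obtain ⟨x, h1, h2, h3⟩ := (hd.and_eventually ((hs.filter_mono hF).and hw)).exists
  exact h2 h3 (h.sub _ h1)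

theorem Irr.not_ff_in (h : Irr U T) {v q : ℂ} {F : Filter ℂ} (hF : F ≤ 𝓝 v) {i : Fin k}
    (hs : ∀ᶠ x in 𝓝 v, dist x q < 1 → i ∉ Pal U x) (hw : InF' F q) : ¬ Ff T F i := by
  intro hd
  obtain ⟨x, h1, h2, h3⟩ := (hd.and_eventually ((hs.filter_mono hF).and hw)).exists
  exact h2 h3 (h.sub _ h1)

/-! ### parabolas -/

/-- the germ `p + r w + r^2 b` -/
def par (p w b : ℂ) (r : ℝ) : ℂ := p + (r * w + r ^ 2 * b)

theorem par_zero (p w b : ℂ) : par p w b 0 = p := by simp [par]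

theorem continuous_par (p w b : ℂ) : Continuous (par p w b) := by
  unfold par; fun_prop

theorem sq_par (p w b y : ℂ) (r : ℝ) : dist (par p w b r) y ^ 2 =
    dist p y ^ 2 + r * (2 * ip w (p - y) + r * (ip w w + 2 * ip b (p - y) + r * (2 * ip w b +
      r * ip b b))) := by
  rw [sq_dist, sq_dist]
  unfold par ip
  simp only [Complex.add_re, Complex.add_im, Complex.sub_re, Complex.sub_im, Complex.mul_re,
    Complex.mul_im, Complex.ofReal_re, Complex.ofReal_im, pow_two]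
  ring

/-- the sign of the distance minus one -/
theorem par_sign {p w b y : ℂ} (hpy : dist p y = 1) {g : ℝ → ℝ} {n : ℕ}
    (hg : ∀ r, dist (par p w b r) y ^ 2 - 1 = r ^ n * g r) (hgc : Continuous g) (h0 : g 0 ≠ 0) :
    ∀ᶠ r : ℝ in 𝓝[>] 0, 0 < (dist (par p w b r) y - 1) * g 0 := by
  have h1 : ∀ᶠ r : ℝ in 𝓝[>] 0, 0 < g r * g 0 := by
    have : Tendsto (fun r => g r * g 0) (𝓝[>] 0) (𝓝 (g 0 * g 0)) :=
      ((hgc.mul continuous_const).tendsto 0).mono_left nhdsWithin_le_nhds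
    exact this.eventually (Ioi_mem_nhds (mul_self_pos.2 h0))
  filter_upwards [h1, self_mem_nhdsWithin] with r h2 h3
  have h3 : (0 : ℝ) < r := h3
  have h4 := hg r
  have h5 := dist_nonneg (x := par p w b r) (y := y)
  set d := dist (par p w b r) y
  have h6 : 0 < (d ^ 2 - 1) * g 0 := by
    rw [h4, mul_assoc]
    exact mul_pos (pow_pos h3 n) h2
  have h7 : (d ^ 2 - 1) * g 0 = (d - 1) * g 0 * (d + 1) := by ring
  rw [h7] at h6
  exact (mul_pos_iff_of_pos_right (by linarith)).1 h6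

theorem par_first {p w b y : ℂ} (hpy : dist p y = 1) (h : ip w (p - y) ≠ 0) :
    ∀ᶠ r : ℝ in 𝓝[>] 0, 0 < (dist (par p w b r) y - 1) * ip w (p - y) := by
  have h1 := par_sign (w := w) (b := b) hpy (n := 1)
    (g := fun r => 2 * ip w (p - y) + r * (ip w w + 2 * ip b (p - y) + r * (2 * ip w b + r * ip b b)))
    (fun r => by rw [sq_par, hpy]; ring) (by fun_prop) (by simpa using h)
  filter_upwards [h1] with r hr
  simp only [zero_mul, add_zero] at hr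
  nlinarith

theorem par_second {p w b y : ℂ} (hpy : dist p y = 1) (h0 : ip w (p - y) = 0)
    (h : ip w w + 2 * ip b (p - y) ≠ 0) :
    ∀ᶠ r : ℝ in 𝓝[>] 0, 0 < (dist (par p w b r) y - 1) * (ip w w + 2 * ip b (p - y)) := by
  have h1 := par_sign (w := w) (b := b) hpy (n := 2)
    (g := fun r => ip w w + 2 * ip b (p - y) + r * (2 * ip w b + r * ip b b))
    (fun r => by rw [sq_par, hpy, h0]; ring) (by fun_prop) (by simpa using h)
  filter_upwards [h1] with r hr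
  simp only [zero_mul, add_zero] at hr
  exact hr

theorem OutG.par_pos {p w b y : ℂ} (hpy : dist p y = 1) (h : 0 < ip w (p - y)) :
    OutG (par p w b) y := by
  filter_upwards [par_first (b := b) hpy h.ne'] with r hr
  by_contra hcon
  push Not at hcon
  nlinarith

theorem InG.par_neg {p w b y : ℂ} (hpy : dist p y = 1) (h : ip w (p - y) < 0) :
    InG (par p w b) y := by
  filter_upwards [par_first (b := b) hpy h.ne] with r hr
  by_contra hcon
  push Not at hcon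
  nlinarith

theorem OutG.par_orth {p w b y : ℂ} (hpy : dist p y = 1) (h0 : ip w (p - y) = 0)
    (h : 0 < ip w w + 2 * ip b (p - y)) : OutG (par p w b) y := by
  filter_upwards [par_second hpy h0 h.ne'] with r hr
  by_contra hcon
  push Not at hcon
  nlinarith

theorem InG.par_orth {p w b y : ℂ} (hpy : dist p y = 1) (h0 : ip w (p - y) = 0)
    (h : ip w w + 2 * ip b (p - y) < 0) : InG (par p w b) y := by
  filter_upwards [par_second hpy h0 h.ne] with r hr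
  by_contra hcon
  push Not at hcon
  nlinarith

end Vale.Agent.P032.Six
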