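import Mathlib

/-!
# P032: the rules at one time of a six-coloured point, abstract form

Points: `0` = `z`, `1 + k` = `z + e k`, `7 + k` = `z + 2 e k`, `13 + k` = `z + e k + e (k + 1)`, `k < 6`, where
`e k` is the unit vector at the angle `u + k` (units of 60 degrees).
Germs at a point `p`: `g < 6` : the ray `e g`; `g = 6 + 3 j + κ` : with `w` the unit vector at `u + j + 1/2`, the ray
`p + r w` (`κ = 0`), the parabolas `p + r w + r^2 i w` (`κ = 1`), `p + r w - r^2 i w` (`κ = 2`).
`Pr i g c` : the colour `c` is present on the germ `g` at the point `i` (at the point `0`, `g < 6`: in the open sector of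
60 degrees about `e g`).  `iL k`, `oL k` : inner and outer letter just before the position `u + k`, `iR`, `oR` : just after it.
`p c` : the sector of the left end of the hull of `c` just before `u` (sector `m` = `(u + m + 1/2, u + m + 3/2)`), `mv c` :
the end moves to the sector before it.
-/

namespace Vale.Agent.P032.H820

/-- angle of a germ, in units of 30 degrees, relative to `u` -/
def gang (g : ℕ) : ℕ := if g < 6 then 2 * g else 2 * ((g - 6) / 3) + 1

/-- kind of a germ -/
def gkap (g : ℕ) : ℕ := if g < 6 then 0 else (g - 6) % 3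

/-- angle `a` (units of 30 degrees) relative to the direction `d` (units of 60 degrees) -/
def rel (a d : ℕ) : ℕ := (a + 12 - 2 * (d % 6)) % 12

/-- the germ `g` at `p` is inside the unit disc about `p + e d`; otherwise it is outside -/
def inside (g d : ℕ) : Bool :=
  rel (gang g) d ≤ 2 || 10 ≤ rel (gang g) d || (rel (gang g) d == 9 && gkap g == 1) ||
    (rel (gang g) d == 3 && gkap g == 2)

/-- neighbours: the point `i + e d` -/
def nb (i d : ℕ) : Option ℕ :=
  if i = 0 then some (1 + d)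
  else if i < 7 then
    let k := i - 1
    if d = k then some (7 + k)
    else if d = (k + 1) % 6 then some (13 + k)
    else if d = (k + 5) % 6 then some (13 + (k + 5) % 6)
    else if d = (k + 2) % 6 then some (1 + (k + 1) % 6)
    else if d = (k + 4) % 6 then some (1 + (k + 5) % 6)
    else some 0
  else if i < 13 then
    let k := i - 7
    if d = (k + 3) % 6 then some (1 + k)
    else if d = (k + 2) % 6 then some (13 + k)
    else if d = (k + 4) % 6 then some (13 + (k + 5) % 6)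
    else none
  else
    let k := i - 13
    if d = (k + 3) % 6 then some (1 + (k + 1) % 6)
    else if d = (k + 4) % 6 then some (1 + k)
    else if d = (k + 2) % 6 then some (7 + (k + 1) % 6)
    else if d = (k + 5) % 6 then some (7 + k)
    else none

/-- the half arc of the circle at `e k` (`s = true`: just after it) is inside the unit disc about `e k + e d`
(`d ≠ k + 3`); otherwise it is outside -/
def arcin (k d : ℕ) (s : Bool) : Bool :=
  let r := rel (if s then 2 * k + 3 else 2 * k + 9) d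
  r == 1 || r == 11

/-- germs at `z` which the letters of the half arc at `e k` avoid -/
def tanx (k g : ℕ) (s : Bool) : Bool :=
  let r := rel (gang g) k
  if s then (r == 3 && gkap g != 2 && 6 ≤ g) || (r == 9 && gkap g == 1)
  else (r == 9 && gkap g != 1 && 6 ≤ g) || (r == 3 && gkap g == 2)

/-- sector `m` and the hull end sectors `p` -/
def win (m p : ℕ) : Bool := (m + 12 - p) % 6 ≤ 3

/-- sector of the hull end after the event -/
def pr (p : ℕ) (b : Bool) : ℕ := if b then (p + 5) % 6 else p % 6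

/-- the germ `g` at `z` may carry a colour with the left hull end `p`, moved if `b` -/
def hullok (p : ℕ) (b : Bool) (g : ℕ) : Bool :=
  if g < 6 then win (g + 5) p && win (g + 5) (pr p b)
  else win ((g - 6) / 3) p && win ((g - 6) / 3 + 5) (pr p b)

/-- window of an inner letter at `k` -/
def winI (k p : ℕ) : Bool := (k + 12 - p) % 6 ≤ 2

/-- window of an outer letter at `k` -/
def winO (k p : ℕ) : Bool := (k + 15 - p) % 6 ≤ 2

/-- **The rules.** -/
structure OneEv (iL oL iR oR : ℕ → Fin 6) (p : Fin 6 → ℕ) (mv : Fin 6 → Bool)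
    (Pr : ℕ → ℕ → Fin 6 → Prop) : Prop where
  plt : ∀ c, p c < 6
  ne : ∀ i < 19, ∀ g < 24, ∃ c, Pr i g c
  r1 : ∀ i < 19, ∀ d < 6, ∀ g < 24, ∀ g' < 24, ∀ j, nb i d = some j →
    (inside g d ≠ inside g' (d + 3) ∨ g = g') → ∀ c, Pr j g' c → ∃ c', c' ≠ c ∧ Pr i g c'
  r2 : ∀ k < 6, ∀ d < 6, d ≠ (k + 3) % 6 → ∀ q, nb (1 + k) d = some q → ∀ g < 24,
    (arcin k d false ≠ inside g (d + 3) → ¬ Pr q g (iL k) ∧ ¬ Pr q g (oL k)) ∧
    (arcin k d true ≠ inside g (d + 3) → ¬ Pr q g (iR k) ∧ ¬ Pr q g (oR k))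
  r2z : ∀ k < 6, ∀ g < 24,
    (tanx k g false = true → ¬ Pr 0 g (iL k) ∧ ¬ Pr 0 g (oL k)) ∧
    (tanx k g true = true → ¬ Pr 0 g (iR k) ∧ ¬ Pr 0 g (oR k))
  ct : ∀ k < 6, ∀ g < 24,
    (inside g (k + 3) = false → ¬ Pr (1 + k) g (iL k) ∧ ¬ Pr (1 + k) g (iR k)) ∧
    (inside g (k + 3) = true → ¬ Pr (1 + k) g (oL k) ∧ ¬ Pr (1 + k) g (oR k))
  hp : ∀ k < 6, ∀ g < 24,
    (3 ≤ rel (gang g) k → rel (gang g) k ≤ 8 → ¬ Pr 0 g (iL k)) ∧
    (4 ≤ rel (gang g) k → rel (gang g) k ≤ 9 → ¬ Pr 0 g (iR k)) ∧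
    (9 ≤ rel (gang g) k ∨ rel (gang g) k ≤ 2 → ¬ Pr 0 g (oL k)) ∧
    (10 ≤ rel (gang g) k ∨ rel (gang g) k ≤ 3 → ¬ Pr 0 g (oR k))
  hull : ∀ g < 24, ∀ c, Pr 0 g c → hullok (p c) (mv c) g = true
  need : ∀ c, mv c = false → Pr 0 ((p c + 1) % 6) c
  io : ∀ k < 6, iR k ≠ oR k
  sixty : ∀ k < 6, iR k ≠ iR ((k + 1) % 6) ∧ iR k ≠ oR ((k + 1) % 6) ∧ oR k ≠ iR ((k + 1) % 6) ∧
    oR k ≠ oR ((k + 1) % 6)
  swap : ∀ k < 6, iL k ≠ oR k ∧ oL k ≠ iR k
  wI : ∀ k < 6, winI k (pr (p (iR k)) (mv (iR k))) = true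
  wO : ∀ k < 6, winO k (pr (p (oR k)) (mv (oR k))) = true

/-- check of the neighbour table: `nb` is symmetric -/
theorem nb_symm : ∀ i < 19, ∀ d < 6, ∀ j, nb i d = some j → j < 19 ∧ nb j ((d + 3) % 6) = some i := by
  decide +kernel

end Vale.Agent.P032.H820
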