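import Vale.Agent.P032.H820.Sound
import Vale.Agent.P032.H820.Bridge
import Vale.Agent.P032.H820.Cert1
import Vale.Agent.P032.H820.Cert2
import Vale.Agent.P032.H820.Cert3
import Vale.Agent.P032.H820.Cert4
import Vale.Agent.P032.H61.Cd

/-!
# P032: the one-class successor table of a six-coloured point

`suc_complete` : if the code of the lifted state before an event is the representative number `n`, then the code of the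
state after the event is in the list number `n`.
-/

namespace Vale.Agent.P032.H820

open Vale.Agent.P032.H892 Vale.Agent.P032.H357 Vale.Agent.P032.H61

/-- pairs of different colours -/
def prs : List (ℕ × ℕ) := [(0, 1), (0, 2), (0, 3), (0, 4), (0, 5), (1, 2), (1, 3), (1, 4), (1, 5), (2, 3),
  (2, 4), (2, 5), (3, 4), (3, 5), (4, 5)]

/-- the blocks of the colours `q.1`, `q.2` have no common letter bit -/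
def disj (y : ℕ) (q : ℕ × ℕ) : Bool :=
  Nat.beq (Nat.land (Nat.land (Nat.shiftRight y (18 * q.1)) (Nat.shiftRight y (18 * q.2))) 4095) 0

/-- at most one bit among the first six -/
def onb (b : ℕ) : Bool := Nat.beq (Nat.land (Nat.land b 63) (Nat.sub (Nat.land b 63) 1)) 0

/-- an exact code -/
def okc (y : ℕ) : Bool := Nat.blt y (2 ^ 108) && prs.all (disj y) &&
  (List.range 6).all fun c => onb (Nat.shiftRight y (18 * c + 12))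

theorem all_okc : (suc.all fun S => S.all okc) = true := by
  decide +kernel

theorem prs_mem : ∀ c d : Fin 6, c ≠ d → (c.val, d.val) ∈ prs ∨ (d.val, c.val) ∈ prs := by
  decide

theorem onb_one' : ∀ b < 64, ∀ i < 6, ∀ j < 6,
    ((onb b && b.testBit i && b.testBit j) = true) → i = j := by
  decide +kernel

theorem onb_one {b : ℕ} (hb : b < 64) (h : onb b = true) {i j : ℕ} (hi : i < 6) (hj : j < 6)
    (h1 : b.testBit i = true) (h2 : b.testBit j = true) : i = j :=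
  onb_one' b hb i hi j hj (by rw [h, h1, h2]; rfl)

theorem disj_bit {y : ℕ} {q : ℕ × ℕ} (h : disj y q = true) {k : ℕ} (hk : k < 12)
    (h1 : y.testBit (18 * q.1 + k) = true) (h2 : y.testBit (18 * q.2 + k) = true) : False := by
  have e := Nat.eq_of_beq_eq_true h
  have e1 := congrArg (fun n => Nat.testBit n k) e
  change Nat.testBit (((y >>> (18 * q.1)) &&& (y >>> (18 * q.2))) &&& 4095) k = Nat.testBit 0 k at e1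
  rw [Nat.testBit_and, Nat.testBit_and, Nat.testBit_shiftRight, Nat.testBit_shiftRight, h1, h2,
    Nat.zero_testBit, show (4095 : ℕ) = 2 ^ 12 - 1 by norm_num, Nat.testBit_two_pow_sub_one] at e1
  simp [hk] at e1

theorem okc_letter {y : ℕ} (h : okc y = true) {c d : Fin 6} {k : ℕ} (hk : k < 12)
    (h1 : y.testBit (18 * c.val + k) = true) (h2 : y.testBit (18 * d.val + k) = true) : c = d := by
  by_contra hcd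
  unfold okc at h
  rw [Bool.and_eq_true, Bool.and_eq_true, List.all_eq_true] at h
  rcases prs_mem c d hcd with hm | hm
  · exact disj_bit (h.1.2 _ hm) hk h1 h2
  · exact disj_bit (h.1.2 _ hm) hk h2 h1

theorem okc_end {y : ℕ} (h : okc y = true) {c : Fin 6} {i j : ℕ} (hi : i < 6) (hj : j < 6)
    (h1 : y.testBit (18 * c.val + (12 + i)) = true) (h2 : y.testBit (18 * c.val + (12 + j)) = true) :
    i = j := by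
  unfold okc at h
  rw [Bool.and_eq_true, Bool.and_eq_true, List.all_eq_true, List.all_eq_true] at h
  have h3 := h.2 c.val (List.mem_range.2 c.isLt)
  have key : ∀ i < 6, y.testBit (18 * c.val + (12 + i)) = true →
      (Nat.land (Nat.shiftRight y (18 * c.val + 12)) 63).testBit i = true := by
    intro i hi h1
    change Nat.testBit ((y >>> (18 * c.val + 12)) &&& 63) i = true
    rw [Nat.testBit_and, Nat.testBit_shiftRight, add_assoc, h1, show (63 : ℕ) = 2 ^ 6 - 1 by norm_num,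
      Nat.testBit_two_pow_sub_one]
    simp [hi]
  have hlt : Nat.land (Nat.shiftRight y (18 * c.val + 12)) 63 < 64 := by
    change (y >>> (18 * c.val + 12)) &&& 63 < 64
    exact lt_of_le_of_lt Nat.and_le_right (by norm_num)
  refine onb_one hlt ?_ hi hj (key i hi h1) (key j hj h2)
  have e : Nat.land (Nat.land (Nat.shiftRight y (18 * c.val + 12)) 63) 63 =
      Nat.land (Nat.shiftRight y (18 * c.val + 12)) 63 := by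
    change ((y >>> (18 * c.val + 12)) &&& 63) &&& 63 = (y >>> (18 * c.val + 12)) &&& 63
    rw [Nat.and_assoc, Nat.and_self]
  unfold onb at h3 ⊢
  rw [e]; exact h3

theorem okc_lt {y : ℕ} (h : okc y = true) : y < 2 ^ 108 := by
  unfold okc at h
  rw [Bool.and_eq_true, Bool.and_eq_true] at h
  have h1 := h.1.1
  rwa [Nat.blt_eq] at h1

/-- the certificates -/
theorem all_ok : ∀ n < 230, ∃ cert, check (rep.getD n 0) fuel cert (suc.getD n []) = true := by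
  intro n hn
  interval_cases n
  exacts [⟨_, ok0⟩, ⟨_, ok1⟩, ⟨_, ok2⟩, ⟨_, ok3⟩, ⟨_, ok4⟩, ⟨_, ok5⟩, ⟨_, ok6⟩, ⟨_, ok7⟩, ⟨_, ok8⟩, ⟨_, ok9⟩, ⟨_, ok10⟩, ⟨_, ok11⟩, ⟨_, ok12⟩, ⟨_, ok13⟩, ⟨_, ok14⟩, ⟨_, ok15⟩, ⟨_, ok16⟩, ⟨_, ok17⟩, ⟨_, ok18⟩, ⟨_, ok19⟩, ⟨_, ok20⟩, ⟨_, ok21⟩, ⟨_, ok22⟩, ⟨_, ok23⟩, ⟨_, ok24⟩, ⟨_, ok25⟩, ⟨_, ok26⟩, ⟨_, ok27⟩, ⟨_, ok28⟩, ⟨_, ok29⟩, ⟨_, ok30⟩, ⟨_, ok31⟩, ⟨_, ok32⟩, ⟨_, ok33⟩, ⟨_, ok34⟩, ⟨_, ok35⟩, ⟨_, ok36⟩, ⟨_, ok37⟩, ⟨_, ok38⟩, ⟨_, ok39⟩, ⟨_, ok40⟩, ⟨_, ok41⟩, ⟨_, ok42⟩, ⟨_, ok43⟩, ⟨_, ok44⟩, ⟨_, ok45⟩, ⟨_, ok46⟩, ⟨_, ok47⟩, ⟨_, ok48⟩, ⟨_, ok49⟩, ⟨_, ok50⟩, ⟨_, ok51⟩, ⟨_, ok52⟩, ⟨_, ok53⟩, ⟨_, ok54⟩, ⟨_, ok55⟩, ⟨_, ok56⟩, ⟨_, ok57⟩, ⟨_, ok58⟩, ⟨_, ok59⟩, ⟨_, ok60⟩, ⟨_, ok61⟩, ⟨_, ok62⟩, ⟨_, ok63⟩, ⟨_, ok64⟩, ⟨_, ok65⟩, ⟨_, ok66⟩, ⟨_, ok67⟩, ⟨_, ok68⟩, ⟨_, ok69⟩, ⟨_, ok70⟩,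 ⟨_, ok71⟩, ⟨_, ok72⟩, ⟨_, ok73⟩, ⟨_, ok74⟩, ⟨_, ok75⟩, ⟨_, ok76⟩, ⟨_, ok77⟩, ⟨_, ok78⟩, ⟨_, ok79⟩, ⟨_, ok80⟩, ⟨_, ok81⟩, ⟨_, ok82⟩, ⟨_, ok83⟩, ⟨_, ok84⟩, ⟨_, ok85⟩, ⟨_, ok86⟩, ⟨_, ok87⟩, ⟨_, ok88⟩, ⟨_, ok89⟩, ⟨_, ok90⟩, ⟨_, ok91⟩, ⟨_, ok92⟩, ⟨_, ok93⟩, ⟨_, ok94⟩, ⟨_, ok95⟩, ⟨_, ok96⟩, ⟨_, ok97⟩, ⟨_, ok98⟩, ⟨_, ok99⟩, ⟨_, ok100⟩, ⟨_, ok101⟩, ⟨_, ok102⟩, ⟨_, ok103⟩, ⟨_, ok104⟩, ⟨_, ok105⟩, ⟨_, ok106⟩, ⟨_, ok107⟩, ⟨_, ok108⟩, ⟨_, ok109⟩, ⟨_, ok110⟩, ⟨_, ok111⟩, ⟨_, ok112⟩, ⟨_, ok113⟩, ⟨_, ok114⟩, ⟨_, ok115⟩, ⟨_, ok116⟩, ⟨_, ok117⟩, ⟨_, ok118⟩, ⟨_, ok119⟩, ⟨_, ok120⟩, ⟨_, ok121⟩, ⟨_, ok122⟩, ⟨_, ok123⟩, ⟨_, ok124⟩, ⟨_, ok125⟩, ⟨_, ok126⟩, ⟨_, ok127⟩, ⟨_, ok128⟩, ⟨_, ok129⟩, ⟨_, ok130⟩, ⟨_, ok131⟩, ⟨_, ok132⟩, ⟨_, ok133⟩, ⟨_, ok134⟩, ⟨_, ok135⟩, ⟨_, ok136⟩, ⟨_, ok137⟩, ⟨_, ok138⟩, ⟨_, ok139⟩, ⟨_, ok140⟩,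 ⟨_, ok141⟩, ⟨_, ok142⟩, ⟨_, ok143⟩, ⟨_, ok144⟩, ⟨_, ok145⟩, ⟨_, ok146⟩, ⟨_, ok147⟩, ⟨_, ok148⟩, ⟨_, ok149⟩, ⟨_, ok150⟩, ⟨_, ok151⟩, ⟨_, ok152⟩, ⟨_, ok153⟩, ⟨_, ok154⟩, ⟨_, ok155⟩, ⟨_, ok156⟩, ⟨_, ok157⟩, ⟨_, ok158⟩, ⟨_, ok159⟩, ⟨_, ok160⟩, ⟨_, ok161⟩, ⟨_, ok162⟩, ⟨_, ok163⟩, ⟨_, ok164⟩, ⟨_, ok165⟩, ⟨_, ok166⟩, ⟨_, ok167⟩, ⟨_, ok168⟩, ⟨_, ok169⟩, ⟨_, ok170⟩, ⟨_, ok171⟩, ⟨_, ok172⟩, ⟨_, ok173⟩, ⟨_, ok174⟩, ⟨_, ok175⟩, ⟨_, ok176⟩, ⟨_, ok177⟩, ⟨_, ok178⟩, ⟨_, ok179⟩, ⟨_, ok180⟩, ⟨_, ok181⟩, ⟨_, ok182⟩, ⟨_, ok183⟩, ⟨_, ok184⟩, ⟨_, ok185⟩, ⟨_, ok186⟩, ⟨_, ok187⟩, ⟨_, ok188⟩, ⟨_, ok189⟩, ⟨_, ok190⟩, ⟨_, ok191⟩, ⟨_, ok192⟩, ⟨_, ok193⟩, ⟨_, ok194⟩, ⟨_, ok195⟩, ⟨_, ok196⟩, ⟨_, ok197⟩, ⟨_, ok198⟩, ⟨_, ok199⟩, ⟨_, ok200⟩, ⟨_, ok201⟩, ⟨_, ok202⟩, ⟨_, ok203⟩, ⟨_, ok204⟩, ⟨_, ok205⟩, ⟨_, ok206⟩, ⟨_, ok207⟩, ⟨_, ok208⟩,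 ⟨_, ok209⟩, ⟨_, ok210⟩, ⟨_, ok211⟩, ⟨_, ok212⟩, ⟨_, ok213⟩, ⟨_, ok214⟩, ⟨_, ok215⟩, ⟨_, ok216⟩, ⟨_, ok217⟩, ⟨_, ok218⟩, ⟨_, ok219⟩, ⟨_, ok220⟩, ⟨_, ok221⟩, ⟨_, ok222⟩, ⟨_, ok223⟩, ⟨_, ok224⟩, ⟨_, ok225⟩, ⟨_, ok226⟩, ⟨_, ok227⟩, ⟨_, ok228⟩, ⟨_, ok229⟩]

theorem okc_of_mem {n : ℕ} {y : ℕ} (h : y ∈ suc.getD n []) : okc y = true := by
  have h1 := List.all_eq_true.1 all_okc
  by_cases hn : n < suc.length
  · rw [List.getD_eq_getElem _ _ hn] at h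
    exact List.all_eq_true.1 (h1 _ (List.getElem_mem hn)) y h
  · rw [List.getD_eq_default _ _ (not_lt.1 hn)] at h
    simp at h

theorem fi_lt {k : ℕ} (hk : k < 6) : (fi k).val = k := Nat.mod_eq_of_lt hk

/-- **The one-class table is complete.** -/
theorem suc_complete : ∀ n < 230, ∀ s t : StZ, EvZ s t → Cd (rep.getD n 0) s →
    ∃ y ∈ suc.getD n [], Cd y t := by
  intro n hn s t hst hcd
  obtain ⟨cert, hcert⟩ := all_ok n hn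
  obtain ⟨U, T, z, C, u, rfl, rfl⟩ := hst
  set s := ZL U T z u with hs
  set t := ZR U T z u with ht
  have S : Sys (toSt6 s) (toSt6 t) (DD T z u) := C.sys u
  have hone := oneEv_of_sys S
  have hp : ∀ c, (((toSt6 s).2 c).1.val : ℤ) = s.2.1 c % 6 := fun c => m6_val _
  have hb : Bef (fun k => ((toSt6 s).1 (fi k)).1) (fun k => ((toSt6 s).1 (fi k)).2)
      (fun c => ((toSt6 s).2 c).1.val) (rep.getD n 0) := by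
    intro c
    refine ⟨fun k hk h => ?_, fun k hk h => ?_, fun k hk h => ?_, ?_⟩
    · have h1 := (hcd.2 c (fi k)).1
      rw [fi_lt hk] at h1
      exact h1.1 h
    · have h1 := (hcd.2 c (fi k)).2.1
      rw [fi_lt hk, add_assoc] at h1
      exact h1.1 h
    · have h1 := (hcd.2 c (fi k)).2.2
      rw [fi_lt hk, add_assoc] at h1
      have h2 := hp c
      rw [h1.1 h] at h2
      exact_mod_cast h2
    · have h1 := (hcd.2 c ((toSt6 s).2 c).1).2.2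
      rw [add_assoc] at h1
      exact h1.2 (hp c).symm
  obtain ⟨y, hy, hmem⟩ := check_sound hone hb hcert
  refine ⟨y, hy, ?_⟩
  have hok := okc_of_mem hy
  refine ⟨okc_lt hok, fun c k => ?_⟩
  have hfk : fi k.val = k := Fin.ext (fi_lt k.isLt)
  refine ⟨⟨fun h => ?_, fun h => ?_⟩, ⟨fun h => ?_, fun h => ?_⟩, ⟨fun h => ?_, fun h => ?_⟩⟩
  · have h1 := (hmem (t.1 k).1).1 k.val k.isLt
      (show ((toSt6 t).1 (fi k.val)).1 = (t.1 k).1 by rw [hfk]; rfl)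
    exact okc_letter hok (by have := k.isLt; omega) h1 h
  · exact (hmem c).1 k.val k.isLt (show ((toSt6 t).1 (fi k.val)).1 = c by rw [hfk]; exact h)
  · have h1 := (hmem (t.1 k).2).2.1 k.val k.isLt
      (show ((toSt6 t).1 (fi k.val)).2 = (t.1 k).2 by rw [hfk]; rfl)
    rw [add_assoc] at h
    exact okc_letter hok (by have := k.isLt; omega) h1 h
  · rw [add_assoc]
    exact (hmem c).2.1 k.val k.isLt (show ((toSt6 t).1 (fi k.val)).2 = c by rw [hfk]; exact h)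
  · have h1 := (hmem c).2.2
    have h2 := step_pr (S.stepP c)
    rw [← h2] at h1
    rw [add_assoc] at h
    have h3 := okc_end hok ((toSt6 t).2 c).1.isLt k.isLt h1 h
    have h4 : (((toSt6 t).2 c).1.val : ℤ) = t.2.1 c % 6 := m6_val _
    rw [← h4, h3]
  · have h1 := (hmem c).2.2
    have h2 := step_pr (S.stepP c)
    rw [← h2] at h1
    have h4 : (((toSt6 t).2 c).1.val : ℤ) = t.2.1 c % 6 := m6_val _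
    rw [h] at h4
    have h5 : ((toSt6 t).2 c).1.val = k.val := by exact_mod_cast h4
    rw [h5] at h1
    rw [add_assoc]; exact h1

end Vale.Agent.P032.H820
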