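import Vale.Agent.P032.S5.H80.Anti

/-!
# P032: sides from continua

If the closure of `U i` contains a nontrivial connected set through `z` then the colour `i` has a
side at every point `p` of `S(z)` near which it is carried by `S(z)`.  If this holds for both
colours `i`, `j` of an exact arc, then one of them is absent outside and the other one inside.
In the tame (map) setting these continua always exist: the closed regions.
-/

open Set Filter Topology Metric

noncomputable section

namespace Vale.Agent.P032.Six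

variable {k : ℕ} {U : Fin k → Set ℂ} {T : ℂ → Set (Fin k)}

/-- the closure of `U i` contains a nontrivial connected set through `z` -/
def Cont (U : Fin k → Set ℂ) (z : ℂ) (i : Fin k) : Prop :=
  ∃ Q ⊆ closure (U i), IsPreconnected Q ∧ z ∈ Q ∧ ∃ x ∈ Q, x ≠ z

/-- in such a set there are points different from any two given ones -/
theorem exists_off_two {Q : Set ℂ} (hQ : IsPreconnected Q) {z x y : ℂ} (hz : z ∈ Q) (hx : x ∈ Q)
    (hxz : x ≠ z) : ∃ w ∈ Q, w ≠ z ∧ w ≠ y := by
  have hinf : Q.Infinite := hQ.infinite_of_nontrivial ⟨x, hx, z, hz, hxz⟩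
  obtain ⟨w, hw, hwn⟩ := hinf.exists_notMem_finset {z, y}
  refine ⟨w, hw, ?_, ?_⟩
  · rintro rfl
    exact hwn (by simp)
  · rintro rfl
    exact hwn (by simp)

/-- a colour with a continuum through `z` which is carried by `S(z)` near `p` has a side at `p` -/
theorem Mx.side_of_cont (h : Mx U) {z p : ℂ} {i : Fin k} (hp : dist p z = 1)
    (hJ : ∀ᶠ q in 𝓝[sphere z 1] p, i ∈ Pal U q) (hc : Cont U z i) :
    (∀ᶠ x in 𝓝 p, 1 < dist x z → i ∉ Pal U x) ∨ (∀ᶠ x in 𝓝 p, dist x z < 1 → i ∉ Pal U x) := by
  obtain ⟨Q, hQF, hQ, hzQ, x0, hx0, hx0z⟩ := hc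
  obtain ⟨x, hx, hxz, hxy⟩ := exists_off_two hQ (y := 2 * p - z) hzQ hx0 hx0z
  have hne : dist p x ≠ 1 := by
    intro hd
    rcases h.partner_line hp hJ hd (hQF hx) with h1 | h1
    · exact hxz h1
    · exact hxy (by linear_combination h1)
  rcases lt_or_gt_of_ne hne with h1 | h1
  · left
    have hev : ∀ᶠ w in 𝓝 p, dist w x < 1 :=
      (continuous_id.dist continuous_const).continuousAt.eventually_lt_const h1
    filter_upwards [hev] with w hw hwz
    exact h.wlemma hQ hQF hx hzQ (by rw [dist_comm]; exact hw) (by rw [dist_comm]; exact hwz)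
  · right
    have hev : ∀ᶠ w in 𝓝 p, 1 < dist w x :=
      (continuous_id.dist continuous_const).continuousAt.eventually_const_lt h1
    filter_upwards [hev] with w hw hwz
    exact h.wlemma hQ hQF hzQ hx (by rw [dist_comm]; exact hwz) (by rw [dist_comm]; exact hw)

/-- near a point of `S(z)` there are points outside -/
theorem freq_outside {z p : ℂ} (hp : dist p z = 1) : ∃ᶠ x in 𝓝 p, 1 < dist x z := by
  have hcont : Tendsto (fun r : ℝ => p + r * (p - z)) (𝓝[>] 0) (𝓝 p) := by
    have : Continuous fun r : ℝ => p + r * (p - z) := by fun_prop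
    have h2 := this.tendsto 0
    simp only [Complex.ofReal_zero, zero_mul, add_zero] at h2
    exact h2.mono_left nhdsWithin_le_nhds
  refine hcont.frequently (Eventually.frequently ?_)
  filter_upwards [self_mem_nhdsWithin] with r hr
  have hr0 : (0 : ℝ) < r := hr
  have h1 : p + r * (p - z) - z = ((1 + r : ℝ) : ℂ) * (p - z) := by push_cast; ring
  have hn : ‖p - z‖ = 1 := by rw [← dist_eq_norm]; exact hp
  rw [dist_eq_norm, h1, norm_mul, hn, Complex.norm_real, Real.norm_of_nonneg (by linarith)]
  linarith

/-- near a point of `S(z)` there are points inside -/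
theorem freq_inside {z p : ℂ} (hp : dist p z = 1) : ∃ᶠ x in 𝓝 p, dist x z < 1 := by
  have hcont : Tendsto (fun r : ℝ => p - r * (p - z)) (𝓝[>] 0) (𝓝 p) := by
    have : Continuous fun r : ℝ => p - r * (p - z) := by fun_prop
    have h2 := this.tendsto 0
    simp only [Complex.ofReal_zero, zero_mul, sub_zero] at h2
    exact h2.mono_left nhdsWithin_le_nhds
  refine hcont.frequently (Eventually.frequently ?_)
  filter_upwards [self_mem_nhdsWithin,
    mem_nhdsWithin_of_mem_nhds (Iio_mem_nhds (show (0 : ℝ) < 1 by norm_num))] with r hr hr1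
  have hr0 : (0 : ℝ) < r := hr
  have hr2 : r < 1 := hr1
  have h1 : p - r * (p - z) - z = ((1 - r : ℝ) : ℂ) * (p - z) := by push_cast; ring
  have hn : ‖p - z‖ = 1 := by rw [← dist_eq_norm]; exact hp
  rw [dist_eq_norm, h1, norm_mul, hn, Complex.norm_real, Real.norm_of_nonneg (by linarith)]
  linarith

/-- **sides from continua**: at an interior point `q` of an exact `ij`-arc of `S(z)`, if both
closures contain nontrivial connected sets through `z`, then one of the two colours is absent
outside and the other one inside -/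
theorem Irr.sd_of_cont (h : Irr U T) {z q : ℂ} {i j : Fin k} (hq : Arc T z q {i, j})
    (hi : Cont U z i) (hj : Cont U z j) : Sd U z q i j ∨ Sd U z q j i := by
  have hJi : ∀ᶠ w in 𝓝[sphere z 1] q, i ∈ Pal U w :=
    hq.2.mono fun w hw => h.sub w (by rw [hw]; simp)
  have hJj : ∀ᶠ w in 𝓝[sphere z 1] q, j ∈ Pal U w :=
    hq.2.mono fun w hw => h.sub w (by rw [hw]; simp)
  have hcov : ∀ᶠ x in 𝓝 q, i ∈ Pal U x ∨ j ∈ Pal U x := by
    filter_upwards [h.nhd q] with x hx
    obtain ⟨l, hl⟩ := h.ne x
    have h2 := hx hl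
    rw [hq.mem] at h2
    rcases h2 with rfl | h2
    · exact Or.inl (h.sub x hl)
    · rw [mem_singleton_iff] at h2
      subst h2
      exact Or.inr (h.sub x hl)
  rcases h.mx.side_of_cont hq.1 hJi hi with h1 | h1 <;>
    rcases h.mx.side_of_cont hq.1 hJj hj with h2 | h2
  · obtain ⟨x, hx, h3, h4, h5⟩ :=
      ((freq_outside hq.1).and_eventually (hcov.and (h1.and h2))).exists
    rcases h3 with h3 | h3
    · exact absurd h3 (h4 hx)
    · exact absurd h3 (h5 hx)
  · left
    filter_upwards [h1, h2] with x h3 h4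
    exact ⟨h3, h4⟩
  · right
    filter_upwards [h1, h2] with x h3 h4
    exact ⟨h4, h3⟩
  · obtain ⟨x, hx, h3, h4, h5⟩ :=
      ((freq_inside hq.1).and_eventually (hcov.and (h1.and h2))).exists
    rcases h3 with h3 | h3
    · exact absurd h3 (h4 hx)
    · exact absurd h3 (h5 hx)

end Vale.Agent.P032.Six
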