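import Vale.Agent.P032.H820.Mach

/-!
# P032: soundness of the stack machine
-/

namespace Vale.Agent.P032.H820

/-! ### bits -/

theorem rem_bit (m r i : ℕ) : (rem m r).testBit i = (m.testBit i && !(r.testBit i)) := by
  change (m ^^^ (m &&& r)).testBit i = _
  rw [Nat.testBit_xor, Nat.testBit_and]
  cases m.testBit i <;> cases r.testBit i <;> rfl

theorem land_bit (a b i : ℕ) : (Nat.land a b).testBit i = (a.testBit i && b.testBit i) :=
  Nat.testBit_and a b i

theorem lor_bit (a b i : ℕ) : (Nat.lor a b).testBit i = (a.testBit i || b.testBit i) :=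
  Nat.testBit_or a b i

theorem shl_bit (a n i : ℕ) : (Nat.shiftLeft a n).testBit i = (decide (n ≤ i) && a.testBit (i - n)) := by
  change (a <<< n).testBit i = _
  rw [Nat.testBit_shiftLeft]

theorem shr_bit (a n i : ℕ) : (Nat.shiftRight a n).testBit i = a.testBit (n + i) := by
  change (a >>> n).testBit i = _
  rw [Nat.testBit_shiftRight]

theorem land_lt {a b n : ℕ} (h : b < 2 ^ n) : Nat.land a b < 2 ^ n := by
  change a &&& b < 2 ^ n
  exact lt_of_le_of_lt Nat.and_le_right h

theorem tabrow_lt (t x : ℕ) : tabrow t x < 2 ^ 470 := by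
  unfold tabrow
  refine land_lt ?_
  rw [tM_eq]
  exact Nat.sub_lt (Nat.pos_of_ne_zero (by positivity)) one_pos

theorem pl_bit {r c0 : ℕ} (hr : r < 2 ^ 470) {c y : ℕ} (hy : y < 470) :
    (pl r c0).testBit (470 * c + y) = (decide (c0 = c) && r.testBit y) := by
  unfold pl
  change (Nat.shiftLeft r (470 * c0)).testBit _ = _
  rw [shl_bit]
  rcases lt_trichotomy c0 c with h | h | h
  · have e : decide (c0 = c) = false := by simpa using h.ne
    rw [e, Bool.false_and]
    have : r.testBit (470 * c + y - 470 * c0) = false := by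
      apply Nat.testBit_lt_two_pow
      refine lt_of_lt_of_le hr (Nat.pow_le_pow_right (by norm_num) ?_)
      have : c0 + 1 ≤ c := h
      omega
    rw [this, Bool.and_false]
  · subst h
    have e1 : 470 * c0 + y - 470 * c0 = y := by omega
    have e2 : 470 * c0 ≤ 470 * c0 + y := by omega
    simp [e1, e2]
  · have e : decide (c0 = c) = false := by simpa using h.ne'
    have e2 : ¬ 470 * c0 ≤ 470 * c + y := by
      have : c + 1 ≤ c0 := h
      omega
    simp [e, e2]

theorem bit1_bit (c0 x0 i : ℕ) : (bit1 c0 x0).testBit i = decide (470 * c0 + x0 = i) := by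
  unfold bit1
  change (1 <<< (470 * c0 + x0)).testBit i = _
  rw [Nat.one_shiftLeft, Nat.testBit_two_pow]

theorem tA_bit {c n : ℕ} (hc : c < 6) (hn : n < 470) :
    tA.testBit (470 * c + n) = decide (n = 0) := by
  have h1 := List.all_eq_true.1 tA_chk c (List.mem_range.2 hc)
  have h2 := List.all_eq_true.1 h1 n (List.mem_range.2 hn)
  rw [tb_eq] at h2
  rw [beq_iff_eq.1 h2]
  by_cases h : n = 0 <;> simp [h]

theorem tAs_bit {x c y : ℕ} (hx : x < 470) (hc : c < 6) (hy : y < 470) :
    (Nat.shiftLeft tA x).testBit (470 * c + y) = decide (x = y) := by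
  rw [shl_bit]
  rcases lt_trichotomy x y with h | h | h
  · have e : 470 * c + y - x = 470 * c + (y - x) := by omega
    rw [e, tA_bit hc (by omega)]
    have e2 : decide (x = y) = false := by simpa using h.ne
    have e3 : decide (y - x = 0) = false := by
      simp only [decide_eq_false_iff_not]; omega
    rw [e2, e3, Bool.and_false]
  · subst h
    have e : 470 * c + x - x = 470 * c + 0 := by omega
    rw [e, tA_bit hc (by omega)]
    simp
  · have e2 : decide (x = y) = false := by simpa using h.ne'
    rw [e2]
    rcases Nat.eq_zero_or_pos c with h0 | h0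
    · subst h0
      have : ¬ x ≤ 470 * 0 + y := by omega
      rw [decide_eq_false this, Bool.false_and]
    · have e : 470 * c + y - x = 470 * (c - 1) + (470 + y - x) := by omega
      rw [e, tA_bit (by omega) (by omega)]
      have e3 : decide (470 + y - x = 0) = false := by
        simp only [decide_eq_false_iff_not]; omega
      rw [e3, Bool.and_false]

theorem ex_bit {c0 x c y : ℕ} (hx : x < 470) (hc : c < 6) (hy : y < 470) :
    (ex c0 x).testBit (470 * c + y) = (decide (x = y) && decide (c0 ≠ c)) := by
  unfold ex
  change (Nat.shiftLeft tA x ^^^ bit1 c0 x).testBit _ = _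
  rw [Nat.testBit_xor, tAs_bit hx hc hy, bit1_bit]
  by_cases h1 : x = y
  · subst h1
    by_cases h2 : c0 = c
    · subst h2; simp
    · have : ¬ 470 * c0 + x = 470 * c + x := by omega
      simp [h2, this]
  · have : ¬ 470 * c0 + x = 470 * c + y := by omega
    simp [h1, this]

section sound

variable {iL oL iR oR : ℕ → Fin 6} {p : Fin 6 → ℕ} {mv : Fin 6 → Bool} {Pr : ℕ → ℕ → Fin 6 → Prop}

/-- the mask contains the truth -/
def Sat (iR oR : ℕ → Fin 6) (mv : Fin 6 → Bool) (Pr : ℕ → ℕ → Fin 6 → Prop) (m : ℕ) : Prop :=
  ∀ c : Fin 6, ∀ x < 470, V iR oR mv Pr x c → m.testBit (470 * c.val + x) = true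

theorem Sat.rem {m r : ℕ} (h : Sat iR oR mv Pr m)
    (hr : ∀ c : Fin 6, ∀ x < 470, V iR oR mv Pr x c → r.testBit (470 * c.val + x) = false) :
    Sat iR oR mv Pr (rem m r) := by
  intro c x hx hV
  rw [rem_bit, h c x hx hV, hr c x hx hV]; rfl

/-- the states which the code `y` allows -/
def Mem (iR oR : ℕ → Fin 6) (p : Fin 6 → ℕ) (mv : Fin 6 → Bool) (y : ℕ) : Prop :=
  ∀ c : Fin 6, (∀ k < 6, iR k = c → y.testBit (18 * c.val + k) = true) ∧
    (∀ k < 6, oR k = c → y.testBit (18 * c.val + (6 + k)) = true) ∧
    y.testBit (18 * c.val + (12 + pr (p c) (mv c))) = true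

/-- the code of the state before -/
def Bef (iL oL : ℕ → Fin 6) (p : Fin 6 → ℕ) (code : ℕ) : Prop :=
  ∀ c : Fin 6, (∀ k < 6, code.testBit (18 * c.val + k) = true → iL k = c) ∧
    (∀ k < 6, code.testBit (18 * c.val + (6 + k)) = true → oL k = c) ∧
    (∀ k < 6, code.testBit (18 * c.val + (12 + k)) = true → p c = k) ∧
    code.testBit (18 * c.val + (12 + p c)) = true

theorem beq_zero {a : ℕ} (h : Nat.beq a 0 = true) : a = 0 := Nat.eq_of_beq_eq_true h

/-- only the colour `c` -/
theorem solid_of {m c x : ℕ} (hm : Sat iR oR mv Pr m) (hx : x < 470)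
    (h : Nat.beq (Nat.land m (ex c x)) 0 = true) : ∀ c' : Fin 6, c'.val ≠ c → ¬ V iR oR mv Pr x c' := by
  intro c' hc' hV
  have h1 := hm c' x hx hV
  have h2 : (ex c x).testBit (470 * c'.val + x) = true := by
    rw [ex_bit hx c'.isLt hx]
    simp [hc'.symm]
  have h3 : (Nat.land m (ex c x)).testBit (470 * c'.val + x) = true := by
    rw [land_bit, h1, h2]; rfl
  rw [beq_zero h] at h3
  simp at h3

theorem empty_of {m x : ℕ} (hm : Sat iR oR mv Pr m) (hx : x < 470)
    (h : Nat.beq (Nat.land m (Nat.shiftLeft tA x)) 0 = true) : ∀ c' : Fin 6, ¬ V iR oR mv Pr x c' := by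
  intro c' hV
  have h1 := hm c' x hx hV
  have h3 : (Nat.land m (Nat.shiftLeft tA x)).testBit (470 * c'.val + x) = true := by
    rw [land_bit, h1, tAs_bit hx c'.isLt hx]; simp
  rw [beq_zero h] at h3
  simp at h3

/-- removal of a table row in a plane -/
theorem Sat.rem_pl {m r c0 : ℕ} (hm : Sat iR oR mv Pr m) (hr : r < 2 ^ 470)
    (h : ∀ c : Fin 6, c.val = c0 → ∀ y < 470, r.testBit y = true → ¬ V iR oR mv Pr y c) :
    Sat iR oR mv Pr (H820.rem m (pl r c0)) := by
  refine hm.rem fun c y hy hV => ?_
  rw [pl_bit hr hy]
  by_contra hcon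
  rw [Bool.not_eq_false, Bool.and_eq_true, decide_eq_true_eq] at hcon
  exact h c hcon.1.symm y hy hcon.2 hV

/-- removal of one bit -/
theorem Sat.rem_bit1 {m c0 x0 : ℕ} (hm : Sat iR oR mv Pr m) (hx : x0 < 470)
    (h : ∀ c : Fin 6, c.val = c0 → ¬ V iR oR mv Pr x0 c) :
    Sat iR oR mv Pr (H820.rem m (bit1 c0 x0)) := by
  refine hm.rem fun c y hy hV => ?_
  rw [bit1_bit]
  by_contra hcon
  rw [Bool.not_eq_false, decide_eq_true_eq] at hcon
  have h1 : c.val = c0 ∧ x0 = y := by omega
  obtain ⟨h2, rfl⟩ := h1
  exact h c h2 hV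

theorem V12 (c : Fin 6) : V iR oR mv Pr 12 c ↔ mv c = false := by
  unfold V
  rw [if_neg (by norm_num), if_pos rfl]

theorem V13 (c : Fin 6) : V iR oR mv Pr 13 c ↔ mv c = true := by
  unfold V
  rw [if_neg (by norm_num), if_neg (by norm_num), if_pos rfl]

/-- the leaf -/
theorem leaf_mem (h : OneEv iL oL iR oR p mv Pr) {code m : ℕ} (hb : Bef iL oL p code)
    (hm : Sat iR oR mv Pr m) : Mem iR oR p mv (lf code m) := by
  have hlf : ∀ c : Fin 6, ∀ j, (lfc code m c.val).testBit j = true →
      (lf code m).testBit (18 * c.val + j) = true := by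
    intro c j hj
    unfold lf
    simp only [lor_bit, shl_bit, Bool.or_eq_true, Bool.and_eq_true, decide_eq_true_eq]
    fin_cases c
    · left; simpa using hj
    · right; left
      refine ⟨by simp, ?_⟩
      simpa using hj
    · right; right; left
      refine ⟨by simp, ?_⟩
      simpa using hj
    · right; right; right; left
      refine ⟨by simp, ?_⟩
      simpa using hj
    · right; right; right; right; left
      refine ⟨by simp, ?_⟩
      simpa using hj
    · right; right; right; right; right
      refine ⟨by simp, ?_⟩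
      simpa using hj
  have h4095 : ∀ j < 12, (4095 : ℕ).testBit j = true := by decide
  have hlow : ∀ c : Fin 6, ∀ j < 12, V iR oR mv Pr j c → (lfc code m c.val).testBit j = true := by
    intro c j hj hV
    have h1 := hm c j (by omega) hV
    unfold lfc
    rw [lor_bit, land_bit, shr_bit, h4095 j hj]
    have e : Nat.mul 470 c.val + j = 470 * c.val + j := rfl
    rw [e, h1]; rfl
  intro c
  refine ⟨fun k hk hc => hlf c k (hlow c k (by omega) ((V_in hk c).2 hc)), fun k hk hc => ?_, ?_⟩
  · rw [show 6 + k = k + 6 by omega]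
    exact hlf c (k + 6) (hlow c (k + 6) (by omega) ((V_out hk c).2 hc))
  · refine hlf c _ ?_
    have hp6 := h.plt c
    have hcb : (Nat.shiftRight code (Nat.mul 18 c.val)).testBit (12 + p c) = true := by
      rw [shr_bit]; exact (hb c).2.2.2
    unfold lfc
    rw [lor_bit, lor_bit]
    have goal2 : ((br (tb m (Nat.add (Nat.mul 470 c.val) 12))
        (Nat.land (Nat.shiftRight code (Nat.mul 18 c.val)) 258048) 0).testBit
          (12 + pr (p c) (mv c)) = true) ∨
        ((br (tb m (Nat.add (Nat.mul 470 c.val) 13))
        (mvb (Nat.land (Nat.shiftRight code (Nat.mul 18 c.val)) 258048)) 0).testBit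
          (12 + pr (p c) (mv c)) = true) := by
      set b := Nat.shiftRight code (Nat.mul 18 c.val) with hbdef
      cases hmv : mv c
      · left
        have h1 := hm c 12 (by norm_num) ((V12 c).2 hmv)
        have e : tb m (Nat.add (Nat.mul 470 c.val) 12) = true := by rw [tb_eq]; exact h1
        rw [e, br_true, land_bit]
        have e2 : pr (p c) false = p c := by
          unfold pr
          rw [if_neg (by simp)]; omega
        rw [e2, hcb]
        have : ∀ q < 6, (258048 : ℕ).testBit (12 + q) = true := by decide
        rw [this _ hp6]; rfl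
      · right
        have h1 := hm c 13 (by norm_num) ((V13 c).2 hmv)
        have e : tb m (Nat.add (Nat.mul 470 c.val) 13) = true := by rw [tb_eq]; exact h1
        rw [e, br_true]
        have e2 : pr (p c) true = (p c + 5) % 6 := by
          unfold pr
          rw [if_pos rfl]
        rw [e2]
        unfold mvb
        simp only [lor_bit, land_bit, shr_bit, shl_bit]
        generalize p c = q at hp6 hcb
        interval_cases q
        · simp only [Nat.zero_add, Nat.add_zero] at hcb ⊢
          have a1 : (4096 : ℕ).testBit 12 = true := by decide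
          have a2 : (258048 : ℕ).testBit 12 = true := by decide
          simp [hcb, a1, a2]
        all_goals
          have a1 : (258048 : ℕ).testBit 12 = true := by decide
          have a2 : (258048 : ℕ).testBit 13 = true := by decide
          have a3 : (258048 : ℕ).testBit 14 = true := by decide
          have a4 : (258048 : ℕ).testBit 15 = true := by decide
          have a5 : (258048 : ℕ).testBit 16 = true := by decide
          have a6 : (258048 : ℕ).testBit 17 = true := by decide
          norm_num at hcb ⊢
          simp [hcb, a1, a2, a3, a4, a5, a6]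
    rcases goal2 with g | g
    · rw [g]; simp
    · rw [g]; simp

theorem tb_false {m i : ℕ} (h : tb m i = false) : m.testBit i = false := by rwa [tb_eq] at h

theorem tb_true {m i : ℕ} (h : tb m i = true) : m.testBit i = true := by rwa [tb_eq] at h

/-- all masks of the stack lead to the list -/
def Good (iR oR : ℕ → Fin 6) (p : Fin 6 → ℕ) (mv : Fin 6 → Bool) (Pr : ℕ → ℕ → Fin 6 → Prop)
    (st S : List ℕ) : Prop := ∀ m ∈ st, Sat iR oR mv Pr m → ∃ y ∈ S, Mem iR oR p mv y

theorem disp_sound (h : OneEv iL oL iR oR p mv Pr) {code : ℕ} (hb : Bef iL oL p code)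
    {go : List ℕ → List ℕ → Bool}
    (hgo : ∀ st S, go st S = true → Good iR oR p mv Pr st S) {op c x m : ℕ}
    {st S : List ℕ} (hd : disp code go op c x m st S = true) : Good iR oR p mv Pr (m :: st) S := by
  unfold disp at hd
  cases h0 : Nat.beq op 0
  swap
  · -- step
    rw [h0, br_true] at hd
    cases h1 : Nat.ble x 469
    · rw [h1, br_false] at hd; cases hd
    rw [h1, br_true] at hd
    have hx : x < 470 := by have := Nat.le_of_ble_eq_true h1; omega
    cases h2 : Nat.beq (Nat.land m (ex c x)) 0
    · rw [h2, br_false] at hd; cases hd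
    rw [h2, br_true] at hd
    have h3 := hgo _ _ hd
    intro m' hm' hs
    rcases List.mem_cons.1 hm' with rfl | hm'
    · refine h3 _ List.mem_cons_self (hs.rem_pl (tabrow_lt _ _) fun c' hc' y hy hy2 => ?_)
      have h4 := solid_of hs hx h2
      refine row_sound h hx hy (chk_ok rowT_chk hx hy hy2) fun c'' hc'' => h4 c'' fun e => hc'' ?_
      exact Fin.ext (e.trans hc'.symm)
    · exact h3 m' (List.mem_cons_of_mem _ hm') hs
  rw [h0, br_false] at hd
  cases h0 : Nat.beq op 1
  swap
  · -- empty
    rw [h0, br_true] at hd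
    cases h1 : Nat.ble x 469
    · rw [h1, br_false] at hd; cases hd
    rw [h1, br_true] at hd
    have hx : x < 470 := by have := Nat.le_of_ble_eq_true h1; omega
    cases h2 : Nat.beq (Nat.land m (Nat.shiftLeft tA x)) 0
    · rw [h2, br_false] at hd; cases hd
    rw [h2, br_true] at hd
    cases h3 : Nat.beq x 12
    swap
    · rw [h3, br_true] at hd; cases hd
    rw [h3, br_false] at hd
    cases h4 : Nat.beq x 13
    swap
    · rw [h4, br_true] at hd; cases hd
    rw [h4, br_false] at hd
    have h5 := hgo _ _ hd
    intro m' hm' hs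
    rcases List.mem_cons.1 hm' with rfl | hm'
    · exfalso
      obtain ⟨c', hc'⟩ := V_ne h hx (Nat.ne_of_beq_eq_false h3) (Nat.ne_of_beq_eq_false h4)
      exact empty_of hs hx h2 c' hc'
    · exact h5 m' hm' hs
  rw [h0, br_false] at hd
  cases h0 : Nat.beq op 2
  swap
  · -- split a letter
    rw [h0, br_true] at hd
    cases h1 : Nat.ble x 11
    · rw [h1, br_false] at hd; cases hd
    rw [h1, br_true] at hd
    have hx : x ≤ 11 := Nat.le_of_ble_eq_true h1
    have h3 := hgo _ _ hd
    intro m' hm' hs
    rcases List.mem_cons.1 hm' with rfl | hm'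
    · -- the letter at `x`
      obtain ⟨l, hl⟩ : ∃ l : Fin 6, ∀ c' : Fin 6, V iR oR mv Pr x c' ↔ l = c' := by
        by_cases h6 : x < 6
        · exact ⟨iR x, fun c' => V_in h6 c'⟩
        · refine ⟨oR (x - 6), fun c' => ?_⟩
          have := V_out (iR := iR) (oR := oR) (mv := mv) (Pr := Pr) (k := x - 6) (by omega) c'
          rwa [show x - 6 + 6 = x by omega] at this
      by_cases hlc : l.val = c
      · refine h3 _ List.mem_cons_self (hs.rem fun c' y hy hV => ?_)
        rw [ex_bit (by omega) c'.isLt hy]
        by_contra hcon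
        rw [Bool.not_eq_false, Bool.and_eq_true, decide_eq_true_eq, decide_eq_true_eq] at hcon
        obtain ⟨rfl, h5⟩ := hcon
        have := (hl c').1 hV
        subst this
        exact h5 hlc.symm
      · refine h3 _ (List.mem_cons_of_mem _ List.mem_cons_self) (hs.rem_bit1 (by omega)
          fun c' hc' hV => ?_)
        have := (hl c').1 hV
        subst this
        exact hlc hc'
    · exact h3 m' (List.mem_cons_of_mem _ (List.mem_cons_of_mem _ hm')) hs
  rw [h0, br_false] at hd
  have hcode : ∀ c' : Fin 6, c'.val = c →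
      tb code (Nat.add (Nat.mul 18 c) (Nat.add 12 x)) = true → x ≤ 5 → p c' = x := by
    intro c' hc' h1 hx
    subst hc'
    exact (hb c').2.2.1 x (by omega) (tb_true h1)
  cases h0 : Nat.beq op 3
  swap
  · -- stays
    rw [h0, br_true] at hd
    cases h1 : tb m (Nat.add (Nat.mul 470 c) 13)
    swap
    · rw [h1, br_true] at hd; cases hd
    rw [h1, br_false] at hd
    cases h2 : tb code (Nat.add (Nat.mul 18 c) (Nat.add 12 x))
    · rw [h2, br_false] at hd; cases hd
    rw [h2, br_true] at hd
    cases h3 : Nat.ble x 5
    · rw [h3, br_false] at hd; cases hd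
    rw [h3, br_true] at hd
    have hx : x ≤ 5 := Nat.le_of_ble_eq_true h3
    have h5 := hgo _ _ hd
    intro m' hm' hs
    rcases List.mem_cons.1 hm' with rfl | hm'
    · refine h5 _ List.mem_cons_self (hs.rem_pl (tabrow_lt _ _) fun c' hc' y hy hy2 => ?_)
      have h6 := chk_ok n0T_chk (by omega : x < 6) hy hy2
      have h7 : mv c' = false := by
        by_contra hcon
        rw [Bool.not_eq_false] at hcon
        have := hs c' 13 (by norm_num) ((V13 c').2 hcon)
        rw [hc'] at this
        have h8 := tb_false h1
        change m'.testBit (470 * c + 13) = false at h8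
        rw [this] at h8; cases h8
      refine hull_sound h h7 ?_
      rw [hcode c' hc' h2 hx]; exact h6
    · exact h5 m' (List.mem_cons_of_mem _ hm') hs
  rw [h0, br_false] at hd
  cases h0 : Nat.beq op 4
  swap
  · -- moves
    rw [h0, br_true] at hd
    cases h1 : tb m (Nat.add (Nat.mul 470 c) 12)
    swap
    · rw [h1, br_true] at hd; cases hd
    rw [h1, br_false] at hd
    cases h2 : tb code (Nat.add (Nat.mul 18 c) (Nat.add 12 x))
    · rw [h2, br_false] at hd; cases hd
    rw [h2, br_true] at hd
    cases h3 : Nat.ble x 5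
    · rw [h3, br_false] at hd; cases hd
    rw [h3, br_true] at hd
    have hx : x ≤ 5 := Nat.le_of_ble_eq_true h3
    have h5 := hgo _ _ hd
    intro m' hm' hs
    rcases List.mem_cons.1 hm' with rfl | hm'
    · refine h5 _ List.mem_cons_self (hs.rem_pl (tabrow_lt _ _) fun c' hc' y hy hy2 => ?_)
      have h6 := chk_ok n1T_chk (by omega : x < 6) hy hy2
      have h7 : mv c' = true := by
        by_contra hcon
        rw [Bool.not_eq_true] at hcon
        have := hs c' 12 (by norm_num) ((V12 c').2 hcon)
        rw [hc'] at this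
        have h8 := tb_false h1
        change m'.testBit (470 * c + 12) = false at h8
        rw [this] at h8; cases h8
      refine hull_sound h h7 ?_
      rw [hcode c' hc' h2 hx]; exact h6
    · exact h5 m' (List.mem_cons_of_mem _ hm') hs
  rw [h0, br_false] at hd
  cases h0 : Nat.beq op 5
  swap
  · -- split an end
    rw [h0, br_true] at hd
    have h3 := hgo _ _ hd
    intro m' hm' hs
    rcases List.mem_cons.1 hm' with rfl | hm'
    · by_cases hmv : ∀ c' : Fin 6, c'.val = c → mv c' = false
      · refine h3 _ List.mem_cons_self (hs.rem_bit1 (by norm_num) fun c' hc' hV => ?_)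
        have h4 := (V13 c').1 hV
        rw [hmv c' hc'] at h4; cases h4
      · push Not at hmv
        obtain ⟨c1, hc1, hm1⟩ := hmv
        refine h3 _ (List.mem_cons_of_mem _ List.mem_cons_self) (hs.rem_bit1 (by norm_num)
          fun c' hc' hV => ?_)
        have h4 := (V12 c').1 hV
        have : c' = c1 := Fin.ext (hc'.trans hc1.symm)
        subst this
        exact hm1 h4
    · exact h3 m' (List.mem_cons_of_mem _ (List.mem_cons_of_mem _ hm')) hs
  rw [h0, br_false] at hd
  cases h0 : Nat.beq op 6
  swap
  · -- the end has to move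
    rw [h0, br_true] at hd
    cases h1 : tb m (Nat.add (Nat.mul 470 c) (Nat.add 14 (Nat.mod (Nat.add x 1) 6)))
    swap
    · rw [h1, br_true] at hd; cases hd
    rw [h1, br_false] at hd
    cases h2 : tb code (Nat.add (Nat.mul 18 c) (Nat.add 12 x))
    · rw [h2, br_false] at hd; cases hd
    rw [h2, br_true] at hd
    cases h3 : Nat.ble x 5
    · rw [h3, br_false] at hd; cases hd
    rw [h3, br_true] at hd
    have hx : x ≤ 5 := Nat.le_of_ble_eq_true h3
    have h5 := hgo _ _ hd
    intro m' hm' hs
    rcases List.mem_cons.1 hm' with rfl | hm'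
    · refine h5 _ List.mem_cons_self (hs.rem_bit1 (by norm_num) fun c' hc' hV => ?_)
      have h6 := h.need c' ((V12 c').1 hV)
      have hpx := hcode c' hc' h2 hx
      rw [hpx] at h6
      have hlt : (x + 1) % 6 < 6 := Nat.mod_lt _ (by norm_num)
      have h7 : V iR oR mv Pr (14 + (x + 1) % 6) c' := by
        rw [V_germ (by omega)]
        have e1 : (14 + (x + 1) % 6 - 14) / 24 = 0 := by omega
        have e2 : (14 + (x + 1) % 6 - 14) % 24 = (x + 1) % 6 := by omega
        rw [e1, e2]; exact h6
      have h8 := hs c' (14 + (x + 1) % 6) (by omega) h7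
      rw [hc'] at h8
      have h9 := tb_false h1
      change m'.testBit (470 * c + (14 + (x + 1) % 6)) = false at h9
      rw [h8] at h9; cases h9
    · exact h5 m' (List.mem_cons_of_mem _ hm') hs
  rw [h0, br_false] at hd
  cases h0 : Nat.beq x 0
  swap
  · -- neither
    rw [h0, br_true] at hd
    cases h1 : Nat.ble c 5
    · rw [h1, br_false] at hd; cases hd
    rw [h1, br_true] at hd
    have hc : c ≤ 5 := Nat.le_of_ble_eq_true h1
    cases h2 : tb m (Nat.add (Nat.mul 470 c) 12)
    swap
    · rw [h2, br_true] at hd; cases hd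
    rw [h2, br_false] at hd
    cases h3 : tb m (Nat.add (Nat.mul 470 c) 13)
    swap
    · rw [h3, br_true] at hd; cases hd
    rw [h3, br_false] at hd
    have h5 := hgo _ _ hd
    intro m' hm' hs
    rcases List.mem_cons.1 hm' with rfl | hm'
    · exfalso
      cases hmv : mv ⟨c, by omega⟩
      · have h6 := hs ⟨c, by omega⟩ 12 (by norm_num) ((V12 _).2 hmv)
        have h7 := tb_false h2
        change m'.testBit (470 * c + 12) = false at h7
        change m'.testBit (470 * c + 12) = true at h6
        rw [h6] at h7; cases h7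
      · have h6 := hs ⟨c, by omega⟩ 13 (by norm_num) ((V13 _).2 hmv)
        have h7 := tb_false h3
        change m'.testBit (470 * c + 13) = false at h7
        change m'.testBit (470 * c + 13) = true at h6
        rw [h6] at h7; cases h7
    · exact h5 m' hm' hs
  rw [h0, br_false] at hd
  cases S with
  | nil => cases hd
  | cons y S' =>
    have hd : br (Nat.beq (lf code m) y) (go st S') false = true := hd
    cases h1 : Nat.beq (lf code m) y
    · rw [h1, br_false] at hd; cases hd
    rw [h1, br_true] at hd
    have h5 := hgo _ _ hd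
    intro m' hm' hs
    rcases List.mem_cons.1 hm' with rfl | hm'
    · refine ⟨y, List.mem_cons_self, ?_⟩
      rw [← Nat.eq_of_beq_eq_true h1]
      exact leaf_mem h hb hs
    · obtain ⟨y', hy', h6⟩ := h5 m' hm' hs
      exact ⟨y', List.mem_cons_of_mem _ hy', h6⟩

theorem run_sound (h : OneEv iL oL iR oR p mv Pr) {code : ℕ} (hb : Bef iL oL p code) :
    ∀ (fuel cert : ℕ) (st S : List ℕ), run code fuel cert st S = true →
      Good iR oR p mv Pr st S := by
  intro fuel
  induction fuel with
  | zero => intro cert st S h1; cases h1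
  | succ fuel ih =>
    intro cert st S h1
    cases st with
    | nil => intro m hm; cases hm
    | cons m st' => exact disp_sound h hb (fun st S h2 => ih _ st S h2) h1

/-- the initial mask -/
theorem initM_sat (h : OneEv iL oL iR oR p mv Pr) {code : ℕ} (hb : Bef iL oL p code) :
    ∀ n ≤ 108, Sat iR oR mv Pr (initM code n) := by
  intro n
  induction n with
  | zero =>
    intro _ c x hx _
    change tF.testBit _ = true
    rw [tF_eq, Nat.testBit_two_pow_sub_one]
    have := c.isLt
    simp only [decide_eq_true_eq]; omega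
  | succ n ih =>
    intro hn
    have ihn := ih (by omega)
    have e : initM code (n + 1) = br (tb code n) (H820.rem (initM code n)
      (pl (ib (Nat.mod n 18)) (Nat.div n 18))) (initM code n) := rfl
    rw [e]
    cases h1 : tb code n
    · rw [br_false]; exact ihn
    rw [br_true]
    have hbit := tb_true h1
    set c0 := n / 18 with hc0
    set x := n % 18 with hx
    have hx18 : x < 18 := Nat.mod_lt _ (by norm_num)
    have hnx : n = 18 * c0 + x := by omega
    have hib : ib x < 2 ^ 470 := by
      unfold ib
      cases h2 : Nat.ble x 11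
      · rw [br_false]; exact land_lt (tabrow_lt _ _)
      · rw [br_true]; exact tabrow_lt _ _
    change Sat iR oR mv Pr (H820.rem (initM code n) (pl (ib x) c0))
    refine ihn.rem_pl hib fun c hc y hy hyb => ?_
    have hcb : code.testBit (18 * c.val + x) = true := by rw [hc, ← hnx]; exact hbit
    unfold ib at hyb
    cases h2 : Nat.ble x 11
    · rw [h2, br_false, land_bit, Bool.and_eq_true] at hyb
      have hx12 : 12 ≤ x := by
        by_contra hcon
        have : Nat.ble x 11 = true := Nat.ble_eq_true_of_le (by omega)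
        rw [h2] at this; cases this
      have hp : p c = x - 12 := (hb c).2.2.1 (x - 12) (by omega) (by
        rw [show 12 + (x - 12) = x by omega]; exact hcb)
      have a := chk_ok n0T_chk (by omega : x - 12 < 6) hy hyb.1
      have b := chk_ok n1T_chk (by omega : x - 12 < 6) hy hyb.2
      cases hmv : mv c
      · exact hull_sound h hmv (by rw [hp]; exact a)
      · exact hull_sound h hmv (by rw [hp]; exact b)
    · rw [h2, br_true] at hyb
      have hx11 : x ≤ 11 := Nat.le_of_ble_eq_true h2
      have a := chk_ok lbT_chk (by omega : x < 12) hy hyb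
      by_cases h6 : x < 6
      · have e1 : x % 6 = x := Nat.mod_eq_of_lt h6
        simp only [e1, h6, decide_true] at a
        have h3 := let_before h h6 hy a
        rw [if_pos rfl, (hb c).1 x h6 hcb] at h3
        exact h3
      · have e1 : x % 6 = x - 6 := by omega
        simp only [e1, h6, decide_false] at a
        have h3 := let_before h (by omega : x - 6 < 6) hy a
        rw [if_neg (by simp), (hb c).2.1 (x - 6) (by omega) (by
          rw [show 6 + (x - 6) = x by omega]; exact hcb)] at h3
        exact h3

/-- **Soundness.** -/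
theorem check_sound (h : OneEv iL oL iR oR p mv Pr) {code fuel cert : ℕ} {S : List ℕ}
    (hb : Bef iL oL p code) (hc : check code fuel cert S = true) : ∃ y ∈ S, Mem iR oR p mv y :=
  run_sound h hb fuel cert _ S hc _ List.mem_cons_self (initM_sat h hb 108 le_rfl)

end sound

end Vale.Agent.P032.H820
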