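import Vale.Agent.P032.H820.Tree
import Vale.Agent.P032.H820.Tab

/-!
# P032: the tables are correct (kernel evaluation)
-/

namespace Vale.Agent.P032.H820

/-- row `x` of a table -/
def tabrow (t x : ℕ) : ℕ := Nat.land (Nat.shiftRight t (Nat.mul 470 x)) tM

/-- bit -/
def tb (m i : ℕ) : Bool := Nat.beq (Nat.land (Nat.shiftRight m i) 1) 1

theorem tb_eq (m i : ℕ) : tb m i = m.testBit i := by
  unfold tb
  change Nat.beq ((m >>> i) &&& 1) 1 = _
  rw [Nat.and_one_is_mod]
  cases h : m.testBit i
  · have h1 : (m >>> i) % 2 = 0 := by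
      have := Nat.testBit_eq_decide_div_mod_eq (x := m) (i := i)
      rw [h] at this
      have h2 : ¬ (m / 2 ^ i % 2 = 1) := by simpa using this.symm
      rw [Nat.shiftRight_eq_div_pow]; omega
    rw [h1]; rfl
  · have h1 : (m >>> i) % 2 = 1 := by
      have := Nat.testBit_eq_decide_div_mod_eq (x := m) (i := i)
      rw [h] at this
      have h2 : m / 2 ^ i % 2 = 1 := by simpa using this.symm
      rw [Nat.shiftRight_eq_div_pow]; omega
    rw [h1]; rfl

/-- the rows `x < n` of `t` satisfy `P` -/
def chk (t n : ℕ) (P : ℕ → ℕ → Bool) : Bool :=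
  (List.range n).all fun x => (List.range 470).all fun y => !(tb (tabrow t x) y) || P x y

theorem chk_ok {t n : ℕ} {P : ℕ → ℕ → Bool} (h : chk t n P = true) {x y : ℕ} (hx : x < n)
    (hy : y < 470) (hb : (tabrow t x).testBit y = true) : P x y = true := by
  unfold chk at h
  have h1 := List.all_eq_true.1 h x (List.mem_range.2 hx)
  have h2 := List.all_eq_true.1 h1 y (List.mem_range.2 hy)
  rw [tb_eq, hb] at h2
  simpa using h2

theorem rowT_chk : chk rowT 470 rowP = true := by decide +kernel

theorem lbT_chk : chk lbT 12 (fun x y => letP false (x % 6) (x < 6) y) = true := by decide +kernel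

theorem n0T_chk : chk n0T 6 (fun p y => hullP false p y) = true := by decide +kernel

theorem n1T_chk : chk n1T 6 (fun p y => hullP true p y) = true := by decide +kernel

/-- the bits of `tA` -/
theorem tA_chk : ((List.range 6).all fun c => (List.range 470).all fun n =>
    tb tA (470 * c + n) == (n == 0)) = true := by decide +kernel

theorem tM_eq : tM = 2 ^ 470 - 1 := by decide +kernel

theorem tF_eq : tF = 2 ^ 2820 - 1 := by decide +kernel

end Vale.Agent.P032.H820
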